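import Vale.Agent.P089.Final

namespace Vale.Agent.Results.P089.IrrationalTrace

/-- The operator norm closure of the complex span of a family of operators. -/
def closedSpan {Γ H : Type} [NormedAddCommGroup H] [InnerProductSpace ℂ H]
    (lam : Γ → (H →L[ℂ] H)) : Set (H →L[ℂ] H) :=
  closure ((Submodule.span ℂ (Set.range lam) : Submodule ℂ (H →L[ℂ] H)) : Set (H →L[ℂ] H))

/-- Orthogonal projections. -/
def IsProjection {H : Type} [NormedAddCommGroup H] [InnerProductSpace ℂ H] [CompleteSpace H]
    (p : H →L[ℂ] H) : Prop :=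
  ContinuousLinearMap.adjoint p = p ∧ p.comp p = p

open Classical in
/-- There is a countable discrete group whose reduced group C*-algebra contains a projection
with irrational canonical trace. -/
theorem result : ∃ (Γ : Type) (_ : Group Γ) (_ : Countable Γ)
    (H : Type) (_ : NormedAddCommGroup H) (_ : InnerProductSpace ℂ H) (_ : CompleteSpace H)
    (δ : HilbertBasis Γ ℂ H) (lam : Γ → (H →L[ℂ] H)),
    (∀ g h, lam g (δ h) = δ (g * h)) ∧
    ∃ p ∈ closedSpan lam, IsProjection p ∧
      ∃ t : ℝ, Irrational t ∧ inner ℂ (δ 1) (p (δ 1)) = (t : ℂ) := by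
  obtain ⟨Γ, _, _, lam, h1, p, δ, t, h2, h3, h4, h5, h6, h7, h8⟩ := Vale.Agent.P089.main
  have e : ∀ g, (default : HilbertBasis Γ ℂ (lp (fun _ : Γ => ℂ) 2)) g = lp.single 2 g 1 :=
    fun g => (HilbertBasis.repr_symm_single _ g).symm
  have e1 : δ = lp.single 2 1 1 := by
    refine lp.ext (funext (fun g => ?_))
    by_cases hg : g = 1
    · rw [hg, h5, lp.single_apply_self]
    · rw [h6 g hg, lp.single_apply_ne _ _ _ hg]
  refine ⟨Γ, inferInstance, inferInstance, lp (fun _ : Γ => ℂ) 2, inferInstance, inferInstance,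
    inferInstance, default, lam, fun g h => ?_, p, h2, ⟨h3, h4⟩, t, h7, ?_⟩
  · refine lp.ext (funext (fun k => ?_))
    rw [h1, e, e]
    simp only [lp.single_apply, Pi.single_apply, inv_mul_eq_iff_eq_mul]
  · rw [e, lp.inner_single_left, ← e1, h8]
    simp

end Vale.Agent.Results.P089.IrrationalTrace
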